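import Vale.Agent.P017.R3.H420.Asm3
import Vale.Agent.P017.R3.H222.AsmB

/-!
# P017, density project (B13): assembly
-/

namespace Vale.Agent.P017.R3.H222

theorem stmtAsmGen : StmtAsmGen := fun hTK hSm hSa hCk hEx S _ hCell hRM =>
  H420.stmtDens_of (H420.stmtA hCell) (stmtB hTK hSm hSa hCk hEx S hRM)

end Vale.Agent.P017.R3.H222
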