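import Vale.Agent.P017.R3.H420.Asm2

/-!
# P017, density project (B13b): regular `d`, pointwise part
-/

open Finset

namespace Vale.Agent.P017.R3.H222

open Vale.Agent.P017.R2.H985 (PF)
open Vale.Agent.P017.R3.H420 (rl ks mem_rl rl_prod smp_mul smp_dvd smp_pf bi_spec RegD)

theorem rl_lt (z : ℝ) (d : ℕ) : (rl z d).Pairwise (· < ·) := by
  unfold rl
  exact (Finset.sortedLT_sort _).pairwise

theorem bi_lt {l : ℝ} (hl : 1 < l) (hl2 : l ≤ 2) {p q : ℕ} (hp : 1 < p) (hpq : p < q)
    (h : ¬ q ≤ 2 * p) : bi l p < bi l q := by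
  obtain ⟨p1, p2⟩ := bi_spec hl hp
  obtain ⟨q1, q2⟩ := bi_spec hl (hp.trans hpq)
  by_contra hc
  have hc' : bi l q ≤ bi l p := not_lt.1 hc
  apply h
  have h1 : l ^ (bi l q + 1) ≤ l * p := by
    calc l ^ (bi l q + 1) ≤ l ^ (bi l p + 1) := pow_le_pow_right₀ hl.le (by omega)
      _ = l * l ^ bi l p := by ring
      _ ≤ l * p := mul_le_mul_of_nonneg_left p1.le (by linarith)
  have h2 : (q : ℝ) ≤ 2 * p := by
    have : l * p ≤ 2 * p := mul_le_mul_of_nonneg_right hl2 (Nat.cast_nonneg p)
    linarith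
  exact_mod_cast h2

theorem pow_le_prod {z : ℝ} (hz : 0 ≤ z) : ∀ ps : List ℕ, (∀ p ∈ ps, z ≤ (p : ℝ)) →
    z ^ ps.length ≤ (ps.prod : ℝ)
  | [], _ => by simp
  | p :: ps, h => by
    have h1 := pow_le_prod hz ps fun q hq => h q (List.mem_cons_of_mem _ hq)
    have h2 := h p List.mem_cons_self
    rw [List.length_cons, List.prod_cons, pow_succ, Nat.cast_mul, mul_comm]
    exact mul_le_mul h2 h1 (by positivity) (hz.trans h2)

theorem box_prod {l : ℝ} (hl : 1 < l) : ∀ ps : List ℕ, (∀ p ∈ ps, 1 < p) →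
    (ps.map fun p => l ^ (bi l p + 1)).prod ≤ l ^ ps.length * (ps.prod : ℝ)
  | [], _ => by simp
  | p :: ps, h => by
    have h1 := box_prod hl ps fun q hq => h q (List.mem_cons_of_mem _ hq)
    obtain ⟨p1, -⟩ := bi_spec hl (h p List.mem_cons_self)
    have hl0 : 0 < l := by linarith
    have h3 : 0 ≤ (ps.map fun p => l ^ (bi l p + 1)).prod :=
      List.prod_nonneg fun x hx => by
        obtain ⟨q, -, rfl⟩ := List.mem_map.1 hx
        positivity
    rw [List.map_cons, List.prod_cons, List.length_cons, List.prod_cons, Nat.cast_mul]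
    have h2 : l ^ (bi l p + 1) ≤ l * p := by
      rw [pow_succ, mul_comm]
      exact mul_le_mul_of_nonneg_left p1.le hl0.le
    calc l ^ (bi l p + 1) * (ps.map fun p => l ^ (bi l p + 1)).prod ≤
          (l * p) * (l ^ ps.length * (ps.prod : ℝ)) := mul_le_mul h2 h1 h3 (by positivity)
      _ = l ^ (ps.length + 1) * (p * (ps.prod : ℝ)) := by ring

theorem eps_mod (p : ℕ) : eps (p % 4) = 1 ↔ p % 4 = 3 := by
  unfold eps
  rw [Nat.mod_mod]
  split_ifs with h
  · simp [h]
  · simp [h]

/-- the count of the primes `3 mod 4` before the last `k + 1` primes -/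
theorem count_take {L : List ℕ} (hs : L.Pairwise (· < ·)) {k h : ℕ} {x : ℝ}
    (hG : k + 1 ≤ (L.toFinset.filter (fun p : ℕ => x < (p : ℝ))).card)
    (hP : h ≤ (L.toFinset.filter (fun p : ℕ => p % 4 = 3 ∧ (p : ℝ) ≤ x)).card) :
    h ≤ ((L.dropLast.map (fun p => eps (p % 4))).take
      ((L.dropLast.map (fun p => eps (p % 4))).length - k)).count 1 := by
  classical
  have hlen : k + 1 ≤ L.length :=
    hG.trans ((card_le_card (filter_subset _ _)).trans (List.toFinset_card_le L))
  set m := L.length - 1 - k with hm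
  have e1 : (L.dropLast.map (fun p => eps (p % 4))).take
      ((L.dropLast.map (fun p => eps (p % 4))).length - k) =
      (L.take m).map (fun p => eps (p % 4)) := by
    rw [List.length_map, List.length_dropLast, ← List.map_take, List.dropLast_eq_take,
      List.take_take, min_eq_left (by omega)]
  rw [e1]
  have hL : L = L.take m ++ L.drop m := (List.take_append_drop m L).symm
  have hdl : (L.drop m).length = k + 1 := by
    rw [List.length_drop]; omega
  have hpw : ∀ y ∈ L.take m, ∀ w ∈ L.drop m, y < w := by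
    rw [hL, List.pairwise_append] at hs
    exact hs.2.2
  -- all elements of the tail are `> x`
  have hx : ∀ w ∈ L.drop m, x < (w : ℝ) := by
    intro w hw
    by_contra hc
    have hc' : (w : ℝ) ≤ x := not_lt.1 hc
    have hsub : L.toFinset.filter (fun p : ℕ => x < (p : ℝ)) ⊆ (L.drop m).toFinset.erase w := by
      intro y hy
      rw [mem_filter, List.mem_toFinset] at hy
      rw [mem_erase, List.mem_toFinset]
      refine ⟨fun h => ?_, ?_⟩
      · rw [h] at hy
        linarith [hy.2]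
      · have h1 : y ∈ L.take m ∨ y ∈ L.drop m := by
          rw [← List.mem_append, ← hL]
          exact hy.1
        rcases h1 with h1 | h1
        · have h2 : (y : ℝ) < w := by exact_mod_cast hpw y h1 w hw
          linarith [hy.2]
        · exact h1
    have h2 := card_le_card hsub
    rw [card_erase_of_mem (List.mem_toFinset.2 hw)] at h2
    have h3 := List.toFinset_card_le (L.drop m)
    omega
  have hsub : L.toFinset.filter (fun p : ℕ => p % 4 = 3 ∧ (p : ℝ) ≤ x) ⊆
      ((L.take m).filter (fun p => p % 4 = 3)).toFinset := by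
    intro y hy
    rw [mem_filter, List.mem_toFinset] at hy
    rw [List.mem_toFinset, List.mem_filter]
    have h1 : y ∈ L.take m ∨ y ∈ L.drop m := by
      rw [← List.mem_append, ← hL]
      exact hy.1
    rcases h1 with h1 | h1
    · exact ⟨h1, by simpa using hy.2.1⟩
    · have := hx y h1
      linarith [hy.2.2]
  have h4 := (card_le_card hsub).trans (List.toFinset_card_le _)
  refine hP.trans (h4.trans (le_of_eq ?_))
  rw [List.count_eq_countP, List.countP_map, List.countP_eq_length_filter]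
  congr 1
  refine List.filter_congr fun p _ => ?_
  have := eps_mod p
  simp only [Function.comp, beq_eq_decide]
  exact (decide_eq_decide.2 this).symm

theorem rl_toFinset (z : ℝ) (d : ℕ) :
    (rl z d).toFinset = d.primeFactors.filter (fun p : ℕ => z < p) := by
  unfold rl
  exact Finset.sort_toFinset _ _

theorem ks_map_fst (l z : ℝ) (d : ℕ) : (ks l z d).map Prod.fst = (rl z d).map (bi l) := by
  unfold ks
  rw [List.map_map]
  rfl

theorem ks_length (l z : ℝ) (d : ℕ) : (ks l z d).length = (rl z d).length := by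
  unfold ks
  rw [List.length_map]

theorem ks_eps (l z : ℝ) (d : ℕ) : (ks l z d).dropLast.map (fun c => eps c.2) =
    (rl z d).dropLast.map (fun p => eps (p % 4)) := by
  unfold ks
  rw [← List.map_dropLast, List.map_map]
  rfl

/-- **Pointwise part**: `d` outside the exceptional sets is regular. -/
theorem reg_of {S : Sys} {l : ℝ} {J T : ℕ} {η₁ B x : ℝ} {h k X d U : ℕ} (hl : 1 < l)
    (hl2 : l ≤ 2) (hz1 : 1 < l ^ J)
    (hRM : ∀ (ε : List (ZMod 2)) (m d : ℕ), Squarefree m → Odd m → m ∣ d → S.OK d →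
      h ≤ (ε.take (ε.length - k)).count 1 →
      avg (fun u : PF m → ZMod 2 => (2 : ℝ) ^ ck (AA m + Matrix.diagonal u)) ≤ B → η₁ ≤ S.f ε m)
    (hX : (X : ℝ) < (l ^ J) ^ (T + 1)) (hd1 : 1 ≤ d) (hdX : d ≤ X) (hsq : Squarefree d)
    (hodd : Odd d) (hOK : S.OK d) (hsm : (smp (l ^ J) d : ℝ) ≤ (l ^ J) ^ U)
    (hck : ¬ (Squarefree d ∧ Odd d ∧ (smp (l ^ J) d : ℝ) ≤ (l ^ J) ^ U ∧
      B < avg (fun u : PF (smp (l ^ J) d) → ZMod 2 =>
        (2 : ℝ) ^ ck (AA (smp (l ^ J) d) + Matrix.diagonal u))))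
    (hG : k + 1 ≤ (d.primeFactors.filter (fun p : ℕ => l ^ J < p ∧ x < (p : ℝ))).card)
    (hP : h ≤ (d.primeFactors.filter
      (fun p : ℕ => l ^ J < p ∧ p % 4 = 3 ∧ (p : ℝ) ≤ x)).card)
    (hsame : ∀ p q : ℕ, p.Prime → q.Prime → l ^ J < p → p < q → q ≤ 2 * p → ¬ p * q ∣ d)
    (hup : l ^ T * d ≤ X) : RegD S l J T η₁ X d := by
  set z : ℝ := l ^ J with hz
  have hz0 : 0 < z := by linarith
  have hl0 : 0 < l := by linarith
  have hprime : ∀ p ∈ rl z d, p.Prime := fun p hp => Nat.prime_of_mem_primeFactors (mem_rl.1 hp).1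
  have hzp : ∀ p ∈ rl z d, z < p := fun p hp => (mem_rl.1 hp).2
  have hmul := smp_mul (z := z) hsq
  have hprod : (rl z d).prod ∣ d := Dvd.intro_left _ hmul
  have hd0 : 0 < d := hd1
  have hlen : (rl z d).length ≤ T := by
    by_contra hc
    have h1 := pow_le_prod hz0.le (rl z d) fun p hp => (hzp p hp).le
    have h2 : ((rl z d).prod : ℝ) ≤ X := by exact_mod_cast (Nat.le_of_dvd hd0 hprod).trans hdX
    have h3 : z ^ (T + 1) ≤ z ^ (rl z d).length :=
      pow_le_pow_right₀ (by linarith) (by omega)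
    linarith
  have hGf : (rl z d).toFinset.filter (fun p : ℕ => x < (p : ℝ)) =
      d.primeFactors.filter (fun p : ℕ => z < p ∧ x < (p : ℝ)) := by
    rw [rl_toFinset, Finset.filter_filter]
  have hPf : (rl z d).toFinset.filter (fun p : ℕ => p % 4 = 3 ∧ (p : ℝ) ≤ x) =
      d.primeFactors.filter (fun p : ℕ => z < p ∧ p % 4 = 3 ∧ (p : ℝ) ≤ x) := by
    rw [rl_toFinset, Finset.filter_filter]
  refine ⟨?_, ?_, ?_, ?_, ?_⟩
  · rw [ks_map_fst, List.pairwise_map]
    refine (rl_lt z d).imp_of_mem fun {p q} hp hq hpq => ?_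
    refine bi_lt hl hl2 (hprime p hp).one_lt hpq fun hc => ?_
    refine hsame p q (hprime p hp) (hprime q hq) (hzp p hp) hpq hc ?_
    exact Nat.Coprime.mul_dvd_of_dvd_of_dvd
      ((Nat.coprime_primes (hprime p hp) (hprime q hq)).2 hpq.ne)
      (Nat.dvd_of_mem_primeFactors (mem_rl.1 hp).1) (Nat.dvd_of_mem_primeFactors (mem_rl.1 hq).1)
  · intro h0
    have h1 : (rl z d).length = 0 := by
      rw [← ks_length l z d, h0]; rfl
    have h2 : (rl z d) = [] := List.length_eq_zero_iff.1 h1
    rw [← hGf, h2] at hG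
    simp at hG
  · rw [ks_length]
    exact hlen
  · have h1 : (ks l z d).map (fun b => l ^ (b.1 + 1)) =
        (rl z d).map (fun p => l ^ (bi l p + 1)) := by
      unfold ks
      rw [List.map_map]
      rfl
    rw [h1]
    have h2 := box_prod hl (rl z d) fun p hp => (hprime p hp).one_lt
    have h3 : l ^ (rl z d).length ≤ l ^ T := pow_le_pow_right₀ hl.le hlen
    have h4 : (smp z d : ℝ) * ((rl z d).prod : ℝ) = d := by exact_mod_cast hmul
    calc (smp z d : ℝ) * ((rl z d).map (fun p => l ^ (bi l p + 1))).prod ≤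
          (smp z d : ℝ) * (l ^ (rl z d).length * ((rl z d).prod : ℝ)) :=
          mul_le_mul_of_nonneg_left h2 (Nat.cast_nonneg _)
      _ = l ^ (rl z d).length * ((smp z d : ℝ) * ((rl z d).prod : ℝ)) := by ring
      _ = l ^ (rl z d).length * d := by rw [h4]
      _ ≤ l ^ T * d := mul_le_mul_of_nonneg_right h3 (Nat.cast_nonneg _)
      _ ≤ X := hup
  · rw [ks_eps]
    refine hRM _ (smp z d) d (hsq.squarefree_of_dvd (smp_dvd hsq)) ?_ (smp_dvd hsq) hOK ?_ ?_
    · exact hodd.of_dvd_nat (smp_dvd hsq)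
    · refine count_take (x := x) (rl_lt z d) ?_ ?_
      · rw [hGf]
        exact hG
      · rw [hPf]
        exact hP
    · by_contra hc
      exact hck ⟨hsq, hodd, hsm, not_le.1 hc⟩

end Vale.Agent.P017.R3.H222
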